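import Vale.Agent.P181.WC.Defs

set_option autoImplicit false

namespace Vale.Agent.P181.WC.H344

open Finset

variable {P : Type}

lemma con_sum {κ : Type} (s : Finset κ) (C : List (Σ ℓ : ℕ, (Fin ℓ → P))) :
    ∀ (g : κ → (P → ℕ) → ℂ) (w : P → ℕ),
      con (fun w => ∑ i ∈ s, g i w) C w = ∑ i ∈ s, con (g i) C w := by
  induction C with
  | nil => intro g w; rfl
  | cons c t ih =>
    intro g w
    have h1 : c1 (fun w => ∑ i ∈ s, g i w) c.1 c.2 = fun w => ∑ i ∈ s, c1 (g i) c.1 c.2 w := by
      funext w
      unfold c1
      rw [Finset.sum_comm]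
      apply Finset.sum_congr rfl
      intro σ _
      rw [Finset.mul_sum]
    show con (c1 (fun w => ∑ i ∈ s, g i w) c.1 c.2) t w = ∑ i ∈ s, con (c1 (g i) c.1 c.2) t w
    rw [h1]
    exact ih (fun i => c1 (g i) c.1 c.2) w

lemma con_zero (C : List (Σ ℓ : ℕ, (Fin ℓ → P))) (g : (P → ℕ) → ℂ) (h : ∀ w, g w = 0)
    (w : P → ℕ) : con g C w = 0 := by
  have h1 := con_sum (∅ : Finset ℕ) C (fun _ _ => (0 : ℂ)) w
  simp only [Finset.sum_empty] at h1
  have h2 : g = fun _ => 0 := funext h
  rw [h2]
  exact h1

theorem iso (hV : VanStmt) : IsoStmt := by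
  intro P B A I _ _ _ _ slot sB β f C hC hslot hInv hker hconf w
  classical
  let κ : Equiv.Perm B → Equiv.Perm P := fun π =>
    (β.trans (Equiv.prodCongr π (Equiv.refl A))).trans β.symm
  have hκ : ∀ π p, β (κ π p) = (π (β p).1, (β p).2) := by
    intro π p
    simp only [κ, Equiv.trans_apply, Equiv.apply_symm_apply, Equiv.prodCongr_apply,
      Prod.map_apply', Equiv.refl_apply]
  let g : Equiv.Perm B → (P → ℕ) → ℂ := fun π w => f (w ∘ κ π)
  have hsum : ∑ π : Equiv.Perm B, con (g π) C w = 0 := by
    rw [← con_sum univ C g w]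
    exact con_zero C _ (fun w => hker w) w
  have halt : ∀ π : Equiv.Perm B, con (g π) C w = 0 ∨ con (g π) C w = con f C w := by
    intro π
    by_cases hπ : ∀ t t' : B, sB t = sB t' → sB (π t) = sB (π t')
    · right
      have h1 : g π = f := by
        funext w'
        apply hInv (κ π)
        intro p p' hp
        rw [hslot, hslot, hκ, hκ]
        apply hπ
        rw [← hslot, ← hslot]
        exact hp
      rw [h1]
    · left
      push Not at hπ
      obtain ⟨t, t', htt, hne⟩ := hπ
      obtain ⟨c, hc, i, j, hi, hj⟩ := hconf _ _ hne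
      have hxy : c.2 i ≠ c.2 j := by
        intro h
        rw [h, hj] at hi
        exact hne (by rw [hi])
      refine hV P univ (g π) C (c.2 i) (c.2 j) hC hxy ?_ ⟨c, hc, ⟨i, rfl⟩, ⟨j, rfl⟩⟩ w
      intro w'
      show f ((w' ∘ Equiv.swap (c.2 i) (c.2 j)) ∘ κ π) = f (w' ∘ κ π)
      set x := (κ π).symm (c.2 i) with hx
      set y := (κ π).symm (c.2 j) with hy
      have hx' : κ π x = c.2 i := (κ π).apply_symm_apply _
      have hy' : κ π y = c.2 j := (κ π).apply_symm_apply _
      have h1 : (w' ∘ Equiv.swap (c.2 i) (c.2 j)) ∘ κ π = (w' ∘ κ π) ∘ Equiv.swap x y := by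
        funext p
        simp only [Function.comp_apply]
        congr 1
        rw [← hx', ← hy']
        exact (κ π).injective.swap_apply x y p
      rw [h1]
      apply hInv
      have hbx : (β x).1 = t := by
        have := hκ π x
        rw [hx'] at this
        have h2 : π (β x).1 = π t := by rw [← hi, this]
        exact π.injective h2
      have hby : (β y).1 = t' := by
        have := hκ π y
        rw [hy'] at this
        have h2 : π (β y).1 = π t' := by rw [← hj, this]
        exact π.injective h2
      have hsl : slot x = slot y := by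
        rw [hslot, hslot, hbx, hby]
        exact htt
      have hsw : ∀ p, slot (Equiv.swap x y p) = slot p := by
        intro p
        rcases eq_or_ne p x with rfl | h1
        · rw [Equiv.swap_apply_left, hsl]
        · rcases eq_or_ne p y with rfl | h2
          · rw [Equiv.swap_apply_right, hsl]
          · rw [Equiv.swap_apply_of_ne_of_ne h1 h2]
      intro p p' hp
      rw [hsw, hsw, hp]
  have hone : con (g 1) C w = con f C w := by
    have h1 : g 1 = f := by
      funext w'
      show f (w' ∘ κ 1) = f w'
      congr 1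
      funext p
      simp only [Function.comp_apply]
      congr 1
      apply β.injective
      rw [hκ]
      rfl
    rw [h1]
  by_contra hne
  have h2 : ∀ π : Equiv.Perm B, con (g π) C w =
      (if con (g π) C w = con f C w then 1 else 0) * con f C w := by
    intro π
    rcases halt π with h | h
    · by_cases h3 : con (g π) C w = con f C w
      · rw [if_pos h3, one_mul]; exact h3
      · rw [if_neg h3, zero_mul]; exact h
    · rw [if_pos h, one_mul]; exact h
  rw [Finset.sum_congr rfl (fun π _ => h2 π), ← Finset.sum_mul, Finset.sum_boole] at hsum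
  rcases mul_eq_zero.1 hsum with h | h
  · rw [Nat.cast_eq_zero, Finset.card_eq_zero] at h
    have h3 : (1 : Equiv.Perm B) ∈ univ.filter (fun π => con (g π) C w = con f C w) := by
      rw [Finset.mem_filter]
      exact ⟨Finset.mem_univ _, hone⟩
    rw [h] at h3
    exact absurd h3 (Finset.notMem_empty _)
  · exact hne h

end Vale.Agent.P181.WC.H344
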