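import Vale.Agent.P181.WC.DefsW
import Vale.Agent.P181.WC.H344.Iso

set_option autoImplicit false

namespace Vale.Agent.P181.WC.H344

open Finset Vale.Agent.P181.H280

lemma good_cover {P : Type} [Fintype P] [DecidableEq P] (C : List (Σ ℓ : ℕ, (Fin ℓ → P))) :
    ∀ S : Finset P, Good S C → ∀ p ∈ S, ∃ c ∈ C, ∃ i, c.2 i = p := by
  induction C with
  | nil =>
    intro S hS p hp
    rw [show S = ∅ from hS] at hp
    exact absurd hp (Finset.notMem_empty _)
  | cons c t ih =>
    intro S hS p hp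
    obtain ⟨_, _, h3⟩ := hS
    by_cases h : ∃ i, c.2 i = p
    · exact ⟨c, List.mem_cons_self, h⟩
    · push Not at h
      obtain ⟨c', hc', hi⟩ := ih _ h3 p (Finset.mem_filter.2 ⟨hp, h⟩)
      exact ⟨c', List.mem_cons_of_mem _ hc', hi⟩

lemma good_inj {P : Type} [Fintype P] [DecidableEq P] (C : List (Σ ℓ : ℕ, (Fin ℓ → P))) :
    ∀ S : Finset P, Good S C → ∀ c ∈ C, Function.Injective c.2 := by
  induction C with
  | nil => intro S _ c hc; exact absurd hc (List.not_mem_nil)
  | cons c t ih =>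
    intro S hS c' hc'
    obtain ⟨h1, _, h3⟩ := hS
    rcases List.mem_cons.1 hc' with rfl | h
    · exact h1
    · exact ih _ h3 c' h

theorem fin (hI : IsoStmt) (hCol : ColStmt) (hV : VanStmt) (hS : SplitStmt) (h1 : W1Stmt)
    (h2 : W2Stmt) (h3 : W3Stmt) (h4 : W4Stmt) : FinStmt := by
  intro a q n k lam hq hanti hlam hk x hx h0
  classical
  obtain ⟨l, rfl⟩ := exists_elOf x
  apply h4
  have hHW := h1 a (q * a) n lam l hx
  have hInv := h2 a (q * a) n l
  have hKer := h3 a q n l h0
  set μ : ℕ → ℕ := fun m => if h : m < n then lam ⟨m, h⟩ else 0 with hμ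
  have hμa : Antitone μ := by
    intro m m' hm
    simp only [hμ]
    by_cases h' : m' < n
    · rw [dif_pos h', dif_pos (lt_of_le_of_lt hm h')]
      exact hanti hm
    · rw [dif_neg h']
      exact Nat.zero_le _
  refine hCol (Fin a × Fin (q * a)) (μ 0) univ μ (wf l) hμa ⟨n, fun m hm => ?_⟩ rfl hHW ?_
  · simp only [hμ]
    rw [dif_neg (not_lt.2 hm)]
  intro C hC hlen w
  rcases Nat.eq_zero_or_pos a with ha | ha
  · subst ha
    refine hI (Fin 0 × Fin (q * 0)) (Fin (q * 0)) (Fin 0) (Fin 0) Prod.fst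
      (fun t => (finProdFinEquiv.symm t).2) (beta0 0 q) (wf l) C hC ?_ hInv hKer ?_ w
    · intro p; exact p.1.elim0
    · intro t; exact t.elim0
  by_cases hbad : ∃ c ∈ C, ∃ i j, i ≠ j ∧ (c.2 i).1 = (c.2 j).1
  · obtain ⟨c, hc, i, j, hij, hs⟩ := hbad
    refine hV _ univ (wf l) C (c.2 i) (c.2 j) hC
      (fun h => hij (good_inj C univ hC c hc h)) ?_ ⟨c, hc, ⟨i, rfl⟩, ⟨j, rfl⟩⟩ w
    apply hInv
    have hsw : ∀ p : Fin a × Fin (q * a), (Equiv.swap (c.2 i) (c.2 j) p).1 = p.1 := by
      intro p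
      rcases eq_or_ne p (c.2 i) with rfl | h
      · rw [Equiv.swap_apply_left, hs]
      · rcases eq_or_ne p (c.2 j) with rfl | h'
        · rw [Equiv.swap_apply_right, hs]
        · rw [Equiv.swap_apply_of_ne_of_ne h h']
    intro p p' hp
    rw [hsw, hsw, hp]
  · push Not at hbad
    have hcov : ∀ p : Fin a × Fin (q * a), ∃ r : Fin C.length, ∃ i, (C.get r).2 i = p := by
      intro p
      obtain ⟨c, hc, i, hi⟩ := good_cover C univ hC p (Finset.mem_univ _)
      obtain ⟨r, hr⟩ := List.mem_iff_get.1 hc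
      subst hr
      exact ⟨r, i, hi⟩
    choose cidx ci hci using hcov
    have hn : 0 < n := by
      by_contra hn
      have hL : C.length = 0 := by
        rw [hlen]
        simp only [hμ]
        rw [dif_neg hn]
      have := (cidx (⟨0, ha⟩, ⟨0, Nat.mul_pos hq ha⟩)).2
      omega
    have hLk : C.length + k ≤ 2 * (q * a) := by
      rw [hlen]
      simp only [hμ]
      rw [dif_pos hn]
      exact hlam ⟨0, hn⟩
    have hinj : ∀ i, Function.Injective (fun j => cidx (i, j)) := by
      intro i j j' hj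
      by_contra hne
      have e1 := hci (i, j)
      have e2 := hci (i, j')
      have hj' : cidx (i, j) = cidx (i, j') := hj
      have hex : ∃ v, (C.get (cidx (i, j))).2 v = (i, j') := by
        rw [hj']; exact ⟨_, e2⟩
      obtain ⟨v, hv⟩ := hex
      refine hbad (C.get (cidx (i, j))) (List.get_mem _ _) (ci (i, j)) v ?_ ?_
      · intro h
        rw [h, hv] at e1
        exact hne (congrArg Prod.snd e1).symm
      · rw [e1, hv]
    obtain ⟨e, he⟩ := hS a q k C.length cidx hq hinj hLk hk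
    let ρ : Equiv.Perm (Fin a × Fin (q * a)) :=
      Equiv.prodShear (Equiv.refl (Fin a)) (fun i => (e i).trans finProdFinEquiv)
    have hρ : ∀ p, ρ p = (p.1, finProdFinEquiv (e p.1 p.2)) := fun p => rfl
    have hb0 : ∀ p : Fin a × Fin (q * a), beta0 a q p =
        (finProdFinEquiv ((finProdFinEquiv.symm p.2).1, p.1), (finProdFinEquiv.symm p.2).2) :=
      fun p => rfl
    let β : Fin a × Fin (q * a) ≃ Fin (q * a) × Fin a := ρ.trans (beta0 a q)
    have hβ : ∀ p, β p = (finProdFinEquiv ((e p.1 p.2).1, p.1), (e p.1 p.2).2) := by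
      intro p
      show beta0 a q (ρ p) = _
      rw [hb0, hρ]
      simp only [Equiv.symm_apply_apply]
    refine hI (Fin a × Fin (q * a)) (Fin (q * a)) (Fin a) (Fin a) Prod.fst
      (fun t => (finProdFinEquiv.symm t).2) β (wf l) C hC ?_ hInv ?_ ?_ w
    · intro p
      rw [hβ]
      simp only [Equiv.symm_apply_apply]
    · intro w'
      rw [← hKer (w' ∘ ρ.symm)]
      apply Finset.sum_congr rfl
      intro π _
      rw [← hInv ρ (fun p p' hp => hp) ((w' ∘ ρ.symm) ∘ _)]
      congr 1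
    · intro t t' htt
      obtain ⟨⟨s, i⟩, rfl⟩ := finProdFinEquiv.surjective t
      obtain ⟨⟨s', i'⟩, rfl⟩ := finProdFinEquiv.surjective t'
      simp only [Equiv.symm_apply_apply] at htt
      obtain ⟨j, j', hjj, hs, hs'⟩ := he i i' htt s s'
      have hex : ∃ v, (C.get (cidx (i, j))).2 v = (i', j') := by
        rw [hjj]; exact ⟨_, hci (i', j')⟩
      obtain ⟨v, hv⟩ := hex
      refine ⟨C.get (cidx (i, j)), List.get_mem _ _, ci (i, j), v, ?_, ?_⟩
      · rw [hci, hβ]
        simp only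
        rw [hs]
      · rw [hv, hβ]
        simp only
        rw [hs']

end Vale.Agent.P181.WC.H344
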